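import Vale.Agent.Lib.P308.NearPerfect

/-!
# A balance criterion

For a connected graph the number of near-perfect matchings is polynomially bounded by the number of
perfect matchings exactly when the numbers `monomer G x` of near-perfect matchings leaving `x`
uncovered are polynomially balanced.
-/

namespace Vale.Agent.Lib.P308

open Finset Function

variable {V : Type*} [Fintype V] [DecidableEq V]

set_option linter.unusedSectionVars false

open Classical in
/-- The number of near-perfect matchings of `G` leaving `x` uncovered. -/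
noncomputable def monomer (G : SimpleGraph V) (x : V) : ℕ :=
  ((nearPerfect G).filter fun f => f x = x).card

theorem mem_nearPerfect {G : SimpleGraph V} {f : V → V} :
    f ∈ nearPerfect G ↔ (∀ x, f (f x) = x) ∧ (Finset.univ.filter fun x => f x = x).card = 2 ∧
      (∀ x, f x ≠ x → G.Adj x (f x)) := by
  classical
  simp [nearPerfect]

theorem missing_pair_subset (G : SimpleGraph V) {x y : V} (hxy : x ≠ y) :
    missing G {x, y} ⊆ (nearPerfect G).filter fun f => f x = x := by
  classical
  intro f hf
  obtain ⟨h1, h2, h3⟩ := mem_missing.1 hf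
  refine Finset.mem_filter.2 ⟨mem_nearPerfect.2 ⟨h1, ?_, ?_⟩, (h2 x).2 (by simp)⟩
  · have : (Finset.univ.filter fun z => f z = z) = {x, y} := by
      ext z
      simp [h2 z]
    rw [this, Finset.card_pair hxy]
  · intro z hz
    exact h3 z (fun h => hz ((h2 z).2 h))

theorem count_pair_le_monomer (G : SimpleGraph V) {x y : V} (hxy : x ≠ y) :
    count G {x, y} ≤ monomer G x := by
  classical
  exact Finset.card_le_card (by simpa using missing_pair_subset G hxy)

theorem monomer_subset (G : SimpleGraph V) (x : V) :
    ((nearPerfect G).filter fun f => f x = x) ⊆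
      (Finset.univ.erase x).biUnion fun y => missing G {x, y} := by
  classical
  intro f hf
  obtain ⟨hf1, hfx⟩ := Finset.mem_filter.1 hf
  obtain ⟨h1, h2, h3⟩ := mem_nearPerfect.1 hf1
  obtain ⟨u, v, huv, hS⟩ := Finset.card_eq_two.1 h2
  have hx : x ∈ ({u, v} : Finset V) := by
    rw [← hS]
    simpa using hfx
  have hfix : ∀ z, f z = z ↔ z ∈ ({u, v} : Finset V) := by
    intro z
    rw [← hS]
    simp
  have hcases : ∃ y, y ≠ x ∧ ({u, v} : Finset V) = {x, y} := by
    rcases Finset.mem_insert.1 hx with h | h
    · exact ⟨v, fun e => huv (h.symm.trans e.symm), by rw [h]⟩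
    · have h' : x = v := Finset.mem_singleton.1 h
      exact ⟨u, fun e => huv (e.trans h'), by rw [h', Finset.pair_comm]⟩
  obtain ⟨y, hyx, hSy⟩ := hcases
  refine Finset.mem_biUnion.2 ⟨y, by simp [hyx], mem_missing.2 ⟨h1, ?_, ?_⟩⟩
  · intro z
    rw [hfix, hSy]
  · intro z hz
    exact h3 z (fun h => hz (by rw [← hSy]; exact (hfix z).1 h))

/-- A perfect matching with the edge at `x` removed is a near-perfect matching leaving `x` uncovered. -/
theorem count_empty_le_monomer (G : SimpleGraph V) (x : V) : count G ∅ ≤ monomer G x := by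
  classical
  refine Finset.card_le_card_of_injOn
    (fun f z => if z = x ∨ z = f x then z else f z) ?_ ?_
  · intro f hf
    obtain ⟨h1, h2, h3⟩ := mem_missing.1 (Finset.mem_coe.1 hf)
    have hne : ∀ z, f z ≠ z := fun z h => by simpa using (h2 z).1 h
    have hfxx : f x ≠ x := hne x
    have hmove : ∀ z, ¬ (z = x ∨ z = f x) → ¬ (f z = x ∨ f z = f x) := by
      intro z hz h
      rcases h with h | h
      · apply hz
        right
        have := h1 z
        rw [h] at this
        exact this.symm
      · apply hz
        left
        have := congrArg f h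
        rwa [h1, h1] at this
    refine Finset.mem_coe.2 (Finset.mem_filter.2 ⟨mem_nearPerfect.2 ⟨?_, ?_, ?_⟩, by simp⟩)
    · intro z
      by_cases hz : z = x ∨ z = f x
      · simp [hz]
      · simp [hz, hmove z hz, h1]
    · have : (Finset.univ.filter fun z => (if z = x ∨ z = f x then z else f z) = z) = {x, f x} := by
        ext z
        simp only [Finset.mem_filter, Finset.mem_univ, true_and, Finset.mem_insert,
          Finset.mem_singleton]
        by_cases hz : z = x ∨ z = f x
        · simp [hz]
        · simp [hz, hne z]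
      rw [this, Finset.card_pair (Ne.symm hfxx)]
    · intro z hz
      by_cases hz' : z = x ∨ z = f x
      · simp [hz'] at hz
      · simp only [hz', if_false]
        exact h3 z (by simp)
  · intro f hf g hg e
    obtain ⟨h1, h2, h3⟩ := mem_missing.1 (Finset.mem_coe.1 hf)
    obtain ⟨g1, g2, g3⟩ := mem_missing.1 (Finset.mem_coe.1 hg)
    have hne : ∀ z, f z ≠ z := fun z h => by simpa using (h2 z).1 h
    have gne : ∀ z, g z ≠ z := fun z h => by simpa using (g2 z).1 h
    have e' : ∀ z, (if z = x ∨ z = f x then z else f z) = (if z = x ∨ z = g x then z else g z) :=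
      fun z => congrFun e z
    have hxx : f x = g x := by
      by_contra hcon
      have := e' (f x)
      have c1 : ¬ (f x = x ∨ f x = g x) := by
        rintro (h | h)
        · exact hne x h
        · exact hcon h
      simp only [or_true, if_true, c1, if_false] at this
      exact gne _ this.symm
    funext z
    by_cases hz : z = x
    · rw [hz, hxx]
    by_cases hz2 : z = f x
    · rw [hz2, h1, hxx, g1]
    · have := e' z
      rw [← hxx] at this
      simpa [hz, hz2] using this

/-- The largest count in the row of `x`. -/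
noncomputable def row (G : SimpleGraph V) (x : V) : ℕ :=
  (Finset.univ.erase x).sup fun y => count G {x, y}

theorem le_row (G : SimpleGraph V) {x y : V} (hxy : y ≠ x) : count G {x, y} ≤ row G x :=
  Finset.le_sup (f := fun y => count G {x, y}) (by simp [hxy])

theorem exists_row_eq (G : SimpleGraph V) {x : V} (h : 0 < row G x) :
    ∃ y, y ≠ x ∧ count G {x, y} = row G x := by
  classical
  have hne : (Finset.univ.erase x).Nonempty := by
    by_contra hcon
    rw [Finset.not_nonempty_iff_eq_empty] at hcon
    simp [row, hcon] at h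
  obtain ⟨y, hy, e⟩ := Finset.exists_mem_eq_sup _ hne (fun y => count G {x, y})
  exact ⟨y, Finset.ne_of_mem_erase hy, e.symm⟩

section Core

variable (G : SimpleGraph V) (M ρ : ℕ) (hMpos : 0 < M)
  (hM : ∀ u v : V, u ≠ v → count G {u, v} ≤ M)
  (hbal : ∀ x : V, M ≤ ρ * row G x)

include hMpos hbal in
theorem row_pos (x : V) : 0 < row G x := by
  rcases Nat.eq_zero_or_pos (row G x) with h | h
  · have := hbal x
    rw [h] at this
    omega
  · exact h

include hMpos hbal in
theorem rho_pos {x : V} : 0 < ρ := by
  rcases Nat.eq_zero_or_pos ρ with h | h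
  · have := hbal x
    rw [h] at this
    omega
  · exact h

include hM in
theorem row_le (x : V) : row G x ≤ M :=
  Finset.sup_le fun y hy => hM x y (Ne.symm (Finset.ne_of_mem_erase hy))

include hMpos hM hbal in
/-- The exchange inequality with the maximiser of the row of `y`. -/
theorem balance_key {x y b : V} (hxy : G.Adj x y) (hxb : x ≠ b) (hyb : y ≠ b) :
    count G {x, b} * row G y ≤ row G x * count G {y, b} + 2 * count G ∅ * M := by
  classical
  obtain ⟨d, hdy, hd⟩ := exists_row_eq G (row_pos G M ρ hMpos hbal y)
  have hxbR : count G {x, b} ≤ row G x := le_row G (Ne.symm hxb)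
  by_cases hdb : d = b
  · rw [← hd, hdb]
    have : count G {x, b} * count G {y, b} ≤ row G x * count G {y, b} :=
      Nat.mul_le_mul_right _ hxbR
    omega
  by_cases hdx : d = x
  · rw [← hd, hdx, count_pair_comm G y x]
    have h1 := count_adj_le G hxy
    have h2 := hM x b hxb
    have : count G {x, b} * count G {x, y} ≤ M * count G ∅ := Nat.mul_le_mul h2 h1
    nlinarith
  have key := four_point_adj G hxy hxb (Ne.symm hdx) (Ne.symm hyb) (Ne.symm hdb) (Ne.symm hdy)
  rw [hd] at key
  have h1 : count G {x, d} ≤ row G x := le_row G hdx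
  have h2 : count G {b, d} ≤ M := hM b d (Ne.symm hdb)
  calc count G {x, b} * row G y
      ≤ count G {y, b} * count G {x, d} + 2 * count G ∅ * count G {b, d} := key
    _ ≤ count G {y, b} * row G x + 2 * count G ∅ * M :=
        Nat.add_le_add (Nat.mul_le_mul_left _ h1) (Nat.mul_le_mul_left _ h2)
    _ = _ := by ring

include hMpos hM hbal in
/-- The bound along a walk. -/
theorem balance_walk {b x : V} (p : G.Walk x b) (hxb : x ≠ b) :
    count G {x, b} * M + ρ ^ 2 * count G ∅ * row G x ≤
      2 * p.length * (ρ ^ 2 * count G ∅ * row G x) := by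
  induction p with
  | nil => exact absurd rfl hxb
  | @cons x y b h q ih =>
    have hlen : (SimpleGraph.Walk.cons h q).length = q.length + 1 := by simp
    rw [hlen]
    set A := ρ ^ 2 * count G ∅ with hA
    have hρ : 0 < ρ := rho_pos G M ρ hMpos hbal (x := x)
    by_cases hyb : y = b
    · subst hyb
      have h1 := count_adj_le G h
      have h2 := hbal x
      have h3 : count G {x, y} * M ≤ count G ∅ * (ρ * row G x) := Nat.mul_le_mul h1 h2
      have h4 : ρ ≤ ρ ^ 2 := by nlinarith
      have h5 : count G ∅ * (ρ * row G x) ≤ A * row G x := by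
        rw [hA]
        calc count G ∅ * (ρ * row G x) = ρ * (count G ∅ * row G x) := by ring
          _ ≤ ρ ^ 2 * (count G ∅ * row G x) := Nat.mul_le_mul_right _ h4
          _ = _ := by ring
      have h6 : 1 * (A * row G x) ≤ q.length * (A * row G x) + 1 * (A * row G x) := by omega
      nlinarith
    · have ih' := ih hyb
      have key := balance_key G M ρ hMpos hM hbal h hxb hyb
      have hRy : 0 < row G y := row_pos G M ρ hMpos hbal y
      have hRx := hbal x
      have hRy' := hbal y
      have hMM : M * M ≤ ρ ^ 2 * (row G x * row G y) := by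
        calc M * M ≤ (ρ * row G x) * (ρ * row G y) := Nat.mul_le_mul hRx hRy'
          _ = _ := by ring
      have goal' : (count G {x, b} * M + A * row G x) * row G y ≤
          (2 * (q.length + 1) * (A * row G x)) * row G y := by
        have e1 : count G {x, b} * M * row G y ≤
            row G x * (count G {y, b} * M) + 2 * count G ∅ * (M * M) := by
          calc count G {x, b} * M * row G y = (count G {x, b} * row G y) * M := by ring
            _ ≤ (row G x * count G {y, b} + 2 * count G ∅ * M) * M := Nat.mul_le_mul_right _ key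
            _ = _ := by ring
        have e2 : 2 * count G ∅ * (M * M) ≤ 2 * count G ∅ * (ρ ^ 2 * (row G x * row G y)) :=
          Nat.mul_le_mul_left _ hMM
        have e3 : row G x * (count G {y, b} * M + A * row G y) ≤
            row G x * (2 * q.length * (A * row G y)) := Nat.mul_le_mul_left _ ih'
        have e4 : 2 * count G ∅ * (ρ ^ 2 * (row G x * row G y)) =
            2 * (A * (row G x * row G y)) := by
          rw [hA]
          ring
        rw [e4] at e2
        nlinarith
      exact Nat.le_of_mul_le_mul_right goal' hRy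

include hMpos hM hbal in
theorem balance_pair {u v : V} (hconn : G.Connected) (huv : u ≠ v) :
    count G {u, v} + ρ ^ 2 * count G ∅ ≤ 2 * G.dist u v * (ρ ^ 2 * count G ∅) := by
  obtain ⟨p, hp⟩ := hconn.exists_walk_length_eq_dist u v
  have h := balance_walk G M ρ hMpos hM hbal p huv
  rw [hp] at h
  have hd : 0 < G.dist u v := by
    rw [← hp]
    rcases Nat.eq_zero_or_pos p.length with h0 | h0
    · exact absurd (SimpleGraph.Walk.eq_of_length_eq_zero h0) huv
    · exact h0
  obtain ⟨l, hl⟩ : ∃ l, G.dist u v = l + 1 := ⟨G.dist u v - 1, by omega⟩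
  rw [hl] at h ⊢
  set A := ρ ^ 2 * count G ∅ with hA
  have h1 : count G {u, v} * M ≤ (2 * l + 1) * (A * row G u) := by nlinarith
  have h2 : row G u ≤ M := row_le G M hM u
  have h3 : (2 * l + 1) * (A * row G u) ≤ (2 * l + 1) * (A * M) :=
    Nat.mul_le_mul_left _ (Nat.mul_le_mul_left _ h2)
  have h4 : count G {u, v} * M ≤ ((2 * l + 1) * A) * M := by
    calc count G {u, v} * M ≤ (2 * l + 1) * (A * row G u) := h1
      _ ≤ (2 * l + 1) * (A * M) := h3
      _ = _ := by ring
  have h5 := Nat.le_of_mul_le_mul_right h4 hMpos
  nlinarith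

end Core

/-- **Balance criterion, pairs.** -/
theorem balance_criterion_pair (G : SimpleGraph V) (hconn : G.Connected) (β : ℕ)
    (hβ : ∀ x y : V, monomer G x ≤ β * monomer G y) {u v : V} (huv : u ≠ v) :
    count G {u, v} + (β * Fintype.card V) ^ 2 * count G ∅ ≤
      2 * G.dist u v * ((β * Fintype.card V) ^ 2 * count G ∅) := by
  classical
  have hne : (Finset.univ.offDiag : Finset (V × V)).Nonempty := ⟨(u, v), by simp [huv]⟩
  obtain ⟨⟨p, q⟩, hpq, hmax⟩ := Finset.exists_max_image _ (fun r : V × V => count G {r.1, r.2}) hne
  have hpq' : p ≠ q := by simpa using hpq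
  set M := count G {p, q} with hMdef
  have hM : ∀ a b : V, a ≠ b → count G {a, b} ≤ M := fun a b hab =>
    hmax (a, b) (by simp [hab])
  rcases Nat.eq_zero_or_pos M with hM0 | hMpos
  · have h0 : count G {u, v} = 0 := by
      have := hM u v huv
      omega
    rw [h0, zero_add]
    have hd : 1 ≤ G.dist u v := by
      by_contra hcon
      have h00 : G.dist u v = 0 := by omega
      rcases (hconn.dist_eq_zero_iff).1 h00 with h
      exact huv h
    have : 2 * 1 * ((β * Fintype.card V) ^ 2 * count G ∅) ≤
        2 * G.dist u v * ((β * Fintype.card V) ^ 2 * count G ∅) :=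
      Nat.mul_le_mul_right _ (Nat.mul_le_mul_left _ hd)
    omega
  have hbal : ∀ x : V, M ≤ (β * Fintype.card V) * row G x := by
    intro x
    have h1 : M ≤ monomer G p := count_pair_le_monomer G hpq'
    have h2 := hβ p x
    have h3 : monomer G x ≤ ∑ y ∈ Finset.univ.erase x, (missing G {x, y}).card :=
      (Finset.card_le_card (monomer_subset G x)).trans Finset.card_biUnion_le
    have h4 : ∑ y ∈ Finset.univ.erase x, (missing G {x, y}).card ≤
        (Finset.univ.erase x).card • row G x :=
      Finset.sum_le_card_nsmul _ _ _ fun y hy => le_row G (Finset.ne_of_mem_erase hy)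
    have h5 : (Finset.univ.erase x).card ≤ Fintype.card V := by
      rw [Finset.card_erase_of_mem (Finset.mem_univ x), Finset.card_univ]
      exact Nat.sub_le _ _
    have h6 : monomer G x ≤ Fintype.card V * row G x := by
      calc monomer G x ≤ _ := h3
        _ ≤ _ := h4
        _ = (Finset.univ.erase x).card * row G x := by simp
        _ ≤ _ := Nat.mul_le_mul_right _ h5
    calc M ≤ β * monomer G x := h1.trans h2
      _ ≤ β * (Fintype.card V * row G x) := Nat.mul_le_mul_left _ h6
      _ = _ := by ring
  exact balance_pair G M _ hMpos hM hbal hconn huv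

/-- **Balance criterion, total.** -/
theorem balance_criterion (G : SimpleGraph V) (hconn : G.Connected) (β : ℕ)
    (hβ : ∀ x y : V, monomer G x ≤ β * monomer G y) :
    (nearPerfect G).card ≤ 2 * β ^ 2 * Fintype.card V ^ 5 * count G ∅ := by
  classical
  set n := Fintype.card V with hn
  have h1 := Finset.card_le_card (nearPerfect_subset G)
  have h2 := Finset.card_biUnion_le (s := (Finset.univ.offDiag : Finset (V × V)))
    (t := fun p => missing G {p.1, p.2})
  have h3 : ∀ p ∈ (Finset.univ.offDiag : Finset (V × V)),
      (missing G {p.1, p.2}).card ≤ 2 * β ^ 2 * n ^ 3 * count G ∅ := by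
    intro p hp
    have hne : p.1 ≠ p.2 := (Finset.mem_offDiag.1 hp).2.2
    have h4 := balance_criterion_pair G hconn β hβ hne
    rw [← hn] at h4
    have h5 := dist_le_card G hconn p.1 p.2
    have h6 : 2 * G.dist p.1 p.2 * ((β * n) ^ 2 * count G ∅) ≤
        2 * n * ((β * n) ^ 2 * count G ∅) :=
      Nat.mul_le_mul_right _ (Nat.mul_le_mul_left _ h5)
    have h7 : 2 * n * ((β * n) ^ 2 * count G ∅) = 2 * β ^ 2 * n ^ 3 * count G ∅ := by ring
    show count G {p.1, p.2} ≤ _
    omega
  have h7 := Finset.sum_le_card_nsmul _ _ _ h3
  have h8 : (Finset.univ.offDiag : Finset (V × V)).card ≤ n * n := by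
    rw [Finset.offDiag_card, Finset.card_univ]
    exact Nat.sub_le _ _
  calc (nearPerfect G).card ≤ _ := h1
    _ ≤ _ := h2
    _ ≤ _ := h7
    _ = (Finset.univ.offDiag : Finset (V × V)).card * (2 * β ^ 2 * n ^ 3 * count G ∅) := by simp
    _ ≤ (n * n) * (2 * β ^ 2 * n ^ 3 * count G ∅) := Nat.mul_le_mul_right _ h8
    _ = 2 * β ^ 2 * n ^ 5 * count G ∅ := by ring

/-- The converse: polynomially few near-perfect matchings force balanced monomer counts. -/
theorem balance_converse (G : SimpleGraph V) (C : ℕ)
    (hC : (nearPerfect G).card ≤ C * count G ∅) (x y : V) :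
    monomer G x ≤ C * monomer G y := by
  classical
  have h1 : monomer G x ≤ (nearPerfect G).card := Finset.card_filter_le _ _
  exact h1.trans (hC.trans (Nat.mul_le_mul_left _ (count_empty_le_monomer G y)))

end Vale.Agent.Lib.P308
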