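import Mathlib

/-!
# A four-point inequality for counts of matchings

For a finite graph and a finite set of vertices `S`, `count G S` is the number of matchings of `G`
that leave uncovered exactly the vertices of `S`; a matching is encoded by the involution
exchanging matched vertices and fixing the uncovered ones.

For distinct vertices `a b c d`,
`count {a,b} * count {c,d} ≤ count {c,b} * count {a,d} + count {a,c} * count {b,d}
  + count {a,b,c,d} * count ∅`.
The proof exchanges the two matchings along the alternating component of `c`.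
-/

namespace Vale.Agent.Lib.P308

open Finset Function

variable {V : Type*} [Fintype V] [DecidableEq V]

set_option linter.unusedSectionVars false

open Classical in
/-- The matchings of `G` leaving uncovered exactly the vertices of `S`: involutions whose fixed
point set is `S` and which send every other vertex to a neighbour. -/
noncomputable def missing (G : SimpleGraph V) (S : Finset V) : Finset (V → V) :=
  Finset.univ.filter fun f =>
    (∀ x, f (f x) = x) ∧ (∀ x, f x = x ↔ x ∈ S) ∧ (∀ x, x ∉ S → G.Adj x (f x))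

/-- The number of matchings of `G` leaving uncovered exactly the vertices of `S`. -/
noncomputable def count (G : SimpleGraph V) (S : Finset V) : ℕ := (missing G S).card

theorem mem_missing {G : SimpleGraph V} {S : Finset V} {f : V → V} :
    f ∈ missing G S ↔
      (∀ x, f (f x) = x) ∧ (∀ x, f x = x ↔ x ∈ S) ∧ (∀ x, x ∉ S → G.Adj x (f x)) := by
  classical
  simp [missing]

/-- The alternating component of `c`: its orbit under the composition of the two involutions. -/
def orb (f g : V → V) (c : V) : Set V := {x | ∃ k : ℕ, (f ∘ g)^[k] c = x}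

theorem start_mem_orb (f g : V → V) (c : V) : c ∈ orb f g c := ⟨0, rfl⟩

section Orbit

variable {f g : V → V} {c : V}

theorem comp_injective (hf : ∀ x, f (f x) = x) (hg : ∀ x, g (g x) = x) : Injective (f ∘ g) := by
  intro x y h
  have h' : f (g x) = f (g y) := h
  have h1 : g x = g y := by
    have := congrArg f h'
    simpa [hf] using this
  have := congrArg g h1
  simpa [hg] using this

theorem comp_after_g (hg : ∀ x, g (g x) = x) (x : V) : (f ∘ g) (g x) = f x := by
  simp [hg]

theorem key_iter (hf : ∀ x, f (f x) = x) (hg : ∀ x, g (g x) = x) (hc : g c = c) (k : ℕ) :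
    (f ∘ g)^[k] (g ((f ∘ g)^[k] c)) = c := by
  induction k with
  | zero => simpa using hc
  | succ k ih =>
    rw [iterate_succ_apply, iterate_succ_apply']
    have h : (f ∘ g) (g ((f ∘ g) ((f ∘ g)^[k] c))) = g ((f ∘ g)^[k] c) := by
      simp only [comp_apply, hg, hf]
    rw [h]
    exact ih

theorem period_pos (hf : ∀ x, f (f x) = x) (hg : ∀ x, g (g x) = x) :
    0 < minimalPeriod (f ∘ g) c :=
  minimalPeriod_pos_of_mem_periodicPts ((comp_injective hf hg).mem_periodicPts c)

theorem iter_eq_start_iff (k : ℕ) :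
    (f ∘ g)^[k] c = c ↔ minimalPeriod (f ∘ g) c ∣ k :=
  ⟨fun h => IsPeriodicPt.minimalPeriod_dvd h, fun h => by
    obtain ⟨m, rfl⟩ := h
    rw [mul_comm]
    exact (isPeriodicPt_minimalPeriod (f ∘ g) c).const_mul m⟩

theorem g_iter (hf : ∀ x, f (f x) = x) (hg : ∀ x, g (g x) = x) (hc : g c = c) (k : ℕ) :
    g ((f ∘ g)^[k] c) = (f ∘ g)^[(minimalPeriod (f ∘ g) c - 1) * k] c := by
  set L := minimalPeriod (f ∘ g) c with hL
  have hLpos : 0 < L := period_pos hf hg
  apply (comp_injective hf hg).iterate k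
  rw [key_iter hf hg hc k, ← iterate_add_apply]
  have : k + (L - 1) * k = L * k := by
    obtain ⟨l, hl⟩ : ∃ l, L = l + 1 := ⟨L - 1, by omega⟩
    rw [hl]
    simp only [Nat.add_sub_cancel]
    ring
  rw [this]
  exact ((iter_eq_start_iff _).2 (dvd_mul_right L k)).symm

theorem g_mem_orb (hf : ∀ x, f (f x) = x) (hg : ∀ x, g (g x) = x) (hc : g c = c) {x : V}
    (hx : x ∈ orb f g c) : g x ∈ orb f g c := by
  obtain ⟨k, rfl⟩ := hx
  exact ⟨_, (g_iter hf hg hc k).symm⟩

theorem f_mem_orb (hf : ∀ x, f (f x) = x) (hg : ∀ x, g (g x) = x) (hc : g c = c) {x : V}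
    (hx : x ∈ orb f g c) : f x ∈ orb f g c := by
  obtain ⟨k, hk⟩ := g_mem_orb hf hg hc hx
  refine ⟨k + 1, ?_⟩
  rw [iterate_succ_apply', hk, comp_after_g hg]

/-- A point of the orbit is fixed by `g` exactly for even multiples of the half period. -/
theorem g_fixed_iff (hf : ∀ x, f (f x) = x) (hg : ∀ x, g (g x) = x) (hc : g c = c) (k : ℕ) :
    g ((f ∘ g)^[k] c) = (f ∘ g)^[k] c ↔ minimalPeriod (f ∘ g) c ∣ 2 * k := by
  rw [← iter_eq_start_iff]
  have hkey := key_iter hf hg hc k
  have h2 : (f ∘ g)^[2 * k] c = (f ∘ g)^[k] ((f ∘ g)^[k] c) := by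
    rw [← iterate_add_apply, two_mul]
  constructor
  · intro h
    rw [h] at hkey
    rw [h2, hkey]
  · intro h
    apply (comp_injective hf hg).iterate k
    rw [hkey, ← h2, h]

theorem f_fixed_iff (hf : ∀ x, f (f x) = x) (hg : ∀ x, g (g x) = x) (hc : g c = c) (k : ℕ) :
    f ((f ∘ g)^[k + 1] c) = (f ∘ g)^[k + 1] c ↔ minimalPeriod (f ∘ g) c ∣ 2 * k + 1 := by
  rw [← iter_eq_start_iff]
  have hkey := key_iter hf hg hc (k + 1)
  rw [iterate_succ_apply, comp_after_g hg] at hkey
  have h2 : (f ∘ g)^[2 * k + 1] c = (f ∘ g)^[k] ((f ∘ g)^[k + 1] c) := by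
    rw [← iterate_add_apply]
    congr 1
    ring
  constructor
  · intro h
    rw [h] at hkey
    rw [h2, hkey]
  · intro h
    apply (comp_injective hf hg).iterate k
    rw [hkey, ← h2, h]

theorem exists_succ_of_mem_orb (hf : ∀ x, f (f x) = x) (hg : ∀ x, g (g x) = x) {x : V}
    (hx : x ∈ orb f g c) : ∃ k, (f ∘ g)^[k + 1] c = x := by
  obtain ⟨k, rfl⟩ := hx
  have hL : 0 < minimalPeriod (f ∘ g) c := period_pos hf hg
  refine ⟨k + minimalPeriod (f ∘ g) c - 1, ?_⟩
  have e : k + minimalPeriod (f ∘ g) c - 1 + 1 = k + minimalPeriod (f ∘ g) c := by omega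
  rw [e, iterate_add_apply, iterate_minimalPeriod]

end Orbit

/-- The alternating component of `c` contains exactly one of the three other special vertices. -/
theorem orbit_trichotomy {f g : V → V} {a b c d : V}
    (hf : ∀ x, f (f x) = x) (hg : ∀ x, g (g x) = x)
    (hfS : ∀ x, f x = x ↔ x = a ∨ x = b) (hgS : ∀ x, g x = x ↔ x = c ∨ x = d)
    (hab : a ≠ b) (hcd : c ≠ d) :
    (d ∈ orb f g c ∧ a ∉ orb f g c ∧ b ∉ orb f g c) ∨
    (a ∈ orb f g c ∧ b ∉ orb f g c ∧ d ∉ orb f g c) ∨
    (b ∈ orb f g c ∧ a ∉ orb f g c ∧ d ∉ orb f g c) := by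
  have hc : g c = c := (hgS c).2 (Or.inl rfl)
  set L := minimalPeriod (f ∘ g) c with hLdef
  have hLpos : 0 < L := period_pos hf hg
  obtain ⟨t, ht | ht⟩ := Nat.even_or_odd' L
  · -- even period
    left
    have htpos : 0 < t := by omega
    have hfix : g ((f ∘ g)^[t] c) = (f ∘ g)^[t] c :=
      (g_fixed_iff hf hg hc t).2 (by rw [← hLdef, ht])
    have hne : (f ∘ g)^[t] c ≠ c := by
      intro h
      have := (iter_eq_start_iff t).1 h
      rw [← hLdef, ht] at this
      have := Nat.le_of_dvd htpos this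
      omega
    have hd : (f ∘ g)^[t] c = d := by
      rcases (hgS _).1 hfix with h | h
      · exact absurd h hne
      · exact h
    have hno : ∀ y, f y = y → y ∉ orb f g c := by
      intro y hy hmem
      obtain ⟨k, hk⟩ := exists_succ_of_mem_orb hf hg hmem
      have : f ((f ∘ g)^[k + 1] c) = (f ∘ g)^[k + 1] c := by rw [hk]; exact hy
      have h2 := (f_fixed_iff hf hg hc k).1 this
      rw [← hLdef, ht] at h2
      have : 2 ∣ 2 * k + 1 := dvd_trans (dvd_mul_right 2 t) h2
      omega
    exact ⟨⟨t, hd⟩, hno a ((hfS a).2 (Or.inl rfl)), hno b ((hfS b).2 (Or.inr rfl))⟩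
  · -- odd period
    right
    have hcop : Nat.Coprime 2 L := by
      rw [ht]
      simp
    have hfix : f ((f ∘ g)^[t + 1] c) = (f ∘ g)^[t + 1] c :=
      (f_fixed_iff hf hg hc t).2 (by rw [← hLdef, ht])
    have hdno : d ∉ orb f g c := by
      rintro ⟨k, hk⟩
      have h1 : g ((f ∘ g)^[k] c) = (f ∘ g)^[k] c := by
        rw [hk]
        exact (hgS d).2 (Or.inr rfl)
      have h2 := (g_fixed_iff hf hg hc k).1 h1
      rw [← hLdef] at h2
      have h3 : L ∣ k := (Nat.Coprime.dvd_of_dvd_mul_left hcop.symm h2)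
      have h4 : (f ∘ g)^[k] c = c := (iter_eq_start_iff k).2 h3
      exact hcd (h4.symm.trans hk)
    have hboth : ¬ (a ∈ orb f g c ∧ b ∈ orb f g c) := by
      rintro ⟨ha, hb⟩
      obtain ⟨k, hk⟩ := exists_succ_of_mem_orb hf hg ha
      obtain ⟨l, hl⟩ := exists_succ_of_mem_orb hf hg hb
      have h1 : f ((f ∘ g)^[k + 1] c) = (f ∘ g)^[k + 1] c := by
        rw [hk]
        exact (hfS a).2 (Or.inl rfl)
      have h2 : f ((f ∘ g)^[l + 1] c) = (f ∘ g)^[l + 1] c := by
        rw [hl]
        exact (hfS b).2 (Or.inr rfl)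
      have h3 := (f_fixed_iff hf hg hc k).1 h1
      have h4 := (f_fixed_iff hf hg hc l).1 h2
      rw [← hLdef] at h3 h4
      have h5 : 2 * k + 1 ≡ 2 * l + 1 [MOD L] :=
        ((Nat.modEq_zero_iff_dvd).2 h3).trans ((Nat.modEq_zero_iff_dvd).2 h4).symm
      have h6 : 2 * k ≡ 2 * l [MOD L] := Nat.ModEq.add_right_cancel' 1 h5
      have h7 : k ≡ l [MOD L] := Nat.ModEq.cancel_left_of_coprime (by
        rw [Nat.gcd_comm]; exact hcop) h6
      have h8 : k + 1 ≡ l + 1 [MOD L] := h7.add_right 1
      have h9 : (f ∘ g)^[k + 1] c = (f ∘ g)^[l + 1] c := by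
        rw [← iterate_mod_minimalPeriod_eq (n := k + 1),
          ← iterate_mod_minimalPeriod_eq (n := l + 1)]
        rw [← hLdef]
        rw [show (k + 1) % L = (l + 1) % L from h8]
      exact hab (hk.symm.trans (h9.trans hl))
    have hyS := (hfS _).1 hfix
    rcases hyS with h | h
    · left
      have haO : a ∈ orb f g c := ⟨t + 1, h⟩
      exact ⟨haO, fun hb => hboth ⟨haO, hb⟩, hdno⟩
    · right
      have hbO : b ∈ orb f g c := ⟨t + 1, h⟩
      exact ⟨hbO, fun ha => hboth ⟨ha, hbO⟩, hdno⟩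

open Classical in
/-- Use `g` on the set `O` and `f` outside it. -/
noncomputable def mix (O : Set V) (f g : V → V) : V → V := fun x => if x ∈ O then g x else f x

theorem mix_mem {G : SimpleGraph V} {S T U : Finset V} {O : Set V} {f g : V → V}
    (hf : f ∈ missing G S) (hg : g ∈ missing G T)
    (hOf : ∀ x, x ∈ O → f x ∈ O) (hOg : ∀ x, x ∈ O → g x ∈ O)
    (hU : ∀ x, x ∈ U ↔ (x ∈ O ∧ x ∈ T) ∨ (x ∉ O ∧ x ∈ S)) : mix O f g ∈ missing G U := by
  classical
  obtain ⟨hf1, hf2, hf3⟩ := mem_missing.1 hf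
  obtain ⟨hg1, hg2, hg3⟩ := mem_missing.1 hg
  have hOf' : ∀ x, x ∉ O → f x ∉ O := fun x hx h => hx (by simpa [hf1] using hOf _ h)
  refine mem_missing.2 ⟨?_, ?_, ?_⟩
  · intro x
    by_cases hx : x ∈ O
    · simp [mix, hx, hOg x hx, hg1]
    · simp [mix, hx, hOf' x hx, hf1]
  · intro x
    rw [hU]
    by_cases hx : x ∈ O
    · simp [mix, hx, hg2]
    · simp [mix, hx, hf2]
  · intro x hxU
    rw [hU] at hxU
    by_cases hx : x ∈ O
    · have : x ∉ T := fun h => hxU (Or.inl ⟨hx, h⟩)
      simpa [mix, hx] using hg3 x this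
    · have : x ∉ S := fun h => hxU (Or.inr ⟨hx, h⟩)
      simpa [mix, hx] using hf3 x this

/-- The exchange map on pairs of matchings. -/
noncomputable def exchange (c : V) (p : (V → V) × (V → V)) : (V → V) × (V → V) :=
  (mix (orb p.1 p.2 c) p.1 p.2, mix (orb p.1 p.2 c) p.2 p.1)

theorem orb_subset_of_exchange_eq {c : V} {f₁ g₁ f₂ g₂ : V → V}
    (hg₁c : g₁ c = c) (hg₂c : g₂ c = c)
    (hf₁ : ∀ x, f₁ (f₁ x) = x) (hg₁ : ∀ x, g₁ (g₁ x) = x)
    (hf₂ : ∀ x, f₂ (f₂ x) = x) (hg₂ : ∀ x, g₂ (g₂ x) = x)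
    (h : exchange c (f₁, g₁) = exchange c (f₂, g₂)) : orb f₁ g₁ c ⊆ orb f₂ g₂ c := by
  classical
  rintro x ⟨k, rfl⟩
  have h1 := congrArg Prod.fst h
  have h2 := congrArg Prod.snd h
  simp only [exchange] at h1 h2
  induction k with
  | zero => exact start_mem_orb _ _ _
  | succ k ih =>
    rw [iterate_succ_apply']
    set x := (f₁ ∘ g₁)^[k] c with hx
    have hx₁ : x ∈ orb f₁ g₁ c := ⟨k, rfl⟩
    have e1 : g₁ x = g₂ x := by
      have := congrFun h1 x
      simpa [mix, hx₁, ih] using this
    have hy₁ : g₁ x ∈ orb f₁ g₁ c := g_mem_orb hf₁ hg₁ hg₁c hx₁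
    have hy₂ : g₁ x ∈ orb f₂ g₂ c := by
      rw [e1]
      exact g_mem_orb hf₂ hg₂ hg₂c ih
    have e2 : f₁ (g₁ x) = f₂ (g₁ x) := by
      have := congrFun h2 (g₁ x)
      simpa [mix, hy₁, hy₂] using this
    show f₁ (g₁ x) ∈ orb f₂ g₂ c
    rw [e2]
    exact f_mem_orb hf₂ hg₂ hg₂c hy₂

theorem exchange_injOn {c : V} {f₁ g₁ f₂ g₂ : V → V}
    (hg₁c : g₁ c = c) (hg₂c : g₂ c = c)
    (hf₁ : ∀ x, f₁ (f₁ x) = x) (hg₁ : ∀ x, g₁ (g₁ x) = x)
    (hf₂ : ∀ x, f₂ (f₂ x) = x) (hg₂ : ∀ x, g₂ (g₂ x) = x)
    (h : exchange c (f₁, g₁) = exchange c (f₂, g₂)) : (f₁, g₁) = (f₂, g₂) := by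
  classical
  have hO : orb f₁ g₁ c = orb f₂ g₂ c :=
    Set.Subset.antisymm (orb_subset_of_exchange_eq hg₁c hg₂c hf₁ hg₁ hf₂ hg₂ h)
      (orb_subset_of_exchange_eq hg₂c hg₁c hf₂ hg₂ hf₁ hg₁ h.symm)
  have h1 := congrArg Prod.fst h
  have h2 := congrArg Prod.snd h
  simp only [exchange, hO] at h1 h2
  have hf : f₁ = f₂ := by
    funext x
    by_cases hx : x ∈ orb f₂ g₂ c
    · have := congrFun h2 x
      simpa [mix, hx] using this
    · have := congrFun h1 x
      simpa [mix, hx] using this
  have hg : g₁ = g₂ := by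
    funext x
    by_cases hx : x ∈ orb f₂ g₂ c
    · have := congrFun h1 x
      simpa [mix, hx] using this
    · have := congrFun h2 x
      simpa [mix, hx] using this
  rw [hf, hg]

/-- **Four-point inequality.** -/
theorem four_point (G : SimpleGraph V) {a b c d : V}
    (hab : a ≠ b) (hac : a ≠ c) (had : a ≠ d) (hbc : b ≠ c) (hbd : b ≠ d) (hcd : c ≠ d) :
    count G {a, b} * count G {c, d} ≤
      count G {c, b} * count G {a, d} + count G {a, c} * count G {b, d}
        + count G {a, b, c, d} * count G ∅ := by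
  classical
  let S₀ := missing G {a, b} ×ˢ missing G {c, d}
  let T₁ := missing G {c, b} ×ˢ missing G {a, d}
  let T₂ := missing G {a, c} ×ˢ missing G {b, d}
  let T₃ := missing G {a, b, c, d} ×ˢ missing G ∅
  have hcard : S₀.card ≤ (T₁ ∪ T₂ ∪ T₃).card := by
    refine Finset.card_le_card_of_injOn (exchange c) ?_ ?_
    · rintro ⟨f, g⟩ hp
      have hp' := Finset.mem_product.1 (Finset.mem_coe.1 hp)
      obtain ⟨hfm, hgm⟩ := hp'
      simp only at hfm hgm
      obtain ⟨hf1, hf2, -⟩ := mem_missing.1 hfm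
      obtain ⟨hg1, hg2, -⟩ := mem_missing.1 hgm
      have hfS : ∀ x, f x = x ↔ x = a ∨ x = b := fun x => by simpa using hf2 x
      have hgS : ∀ x, g x = x ↔ x = c ∨ x = d := fun x => by simpa using hg2 x
      have hc : g c = c := (hgS c).2 (Or.inl rfl)
      have hOf : ∀ x, x ∈ orb f g c → f x ∈ orb f g c := fun x hx => f_mem_orb hf1 hg1 hc hx
      have hOg : ∀ x, x ∈ orb f g c → g x ∈ orb f g c := fun x hx => g_mem_orb hf1 hg1 hc hx
      have hcO : c ∈ orb f g c := start_mem_orb _ _ _
      set O := orb f g c with hOdef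
      simp only [Finset.coe_union, Set.mem_union, Finset.mem_coe]
      rcases orbit_trichotomy hf1 hg1 hfS hgS hab hcd with ⟨hd, ha, hb⟩ | ⟨ha, hb, hd⟩ | ⟨hb, ha, hd⟩
      · -- `d` in the component: a matching missing four vertices and a perfect matching
        right
        refine Finset.mem_product.2 ⟨?_, ?_⟩
        · refine mix_mem hfm hgm hOf hOg ?_
          intro x
          simp only [Finset.mem_insert, Finset.mem_singleton]
          constructor
          · rintro (rfl | rfl | rfl | rfl)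
            · exact Or.inr ⟨ha, Or.inl rfl⟩
            · exact Or.inr ⟨hb, Or.inr rfl⟩
            · exact Or.inl ⟨hcO, Or.inl rfl⟩
            · exact Or.inl ⟨hd, Or.inr rfl⟩
          · rintro (⟨-, rfl | rfl⟩ | ⟨-, rfl | rfl⟩) <;> simp
        · refine mix_mem hgm hfm hOg hOf ?_
          intro x
          simp only [Finset.notMem_empty, Finset.mem_insert, Finset.mem_singleton, false_iff]
          rintro (⟨hx, rfl | rfl⟩ | ⟨hx, rfl | rfl⟩)
          · exact ha hx
          · exact hb hx
          · exact hx hcO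
          · exact hx hd
      · -- `a` in the component
        left; left
        refine Finset.mem_product.2 ⟨?_, ?_⟩
        · refine mix_mem hfm hgm hOf hOg ?_
          intro x
          simp only [Finset.mem_insert, Finset.mem_singleton]
          constructor
          · rintro (rfl | rfl)
            · exact Or.inl ⟨hcO, Or.inl rfl⟩
            · exact Or.inr ⟨hb, Or.inr rfl⟩
          · rintro (⟨hx, rfl | rfl⟩ | ⟨hx, rfl | rfl⟩)
            · exact Or.inl rfl
            · exact absurd hx hd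
            · exact absurd ha hx
            · exact Or.inr rfl
        · refine mix_mem hgm hfm hOg hOf ?_
          intro x
          simp only [Finset.mem_insert, Finset.mem_singleton]
          constructor
          · rintro (rfl | rfl)
            · exact Or.inl ⟨ha, Or.inl rfl⟩
            · exact Or.inr ⟨hd, Or.inr rfl⟩
          · rintro (⟨hx, rfl | rfl⟩ | ⟨hx, rfl | rfl⟩)
            · exact Or.inl rfl
            · exact absurd hx hb
            · exact absurd hcO hx
            · exact Or.inr rfl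
      · -- `b` in the component
        left; right
        refine Finset.mem_product.2 ⟨?_, ?_⟩
        · refine mix_mem hfm hgm hOf hOg ?_
          intro x
          simp only [Finset.mem_insert, Finset.mem_singleton]
          constructor
          · rintro (rfl | rfl)
            · exact Or.inr ⟨ha, Or.inl rfl⟩
            · exact Or.inl ⟨hcO, Or.inl rfl⟩
          · rintro (⟨hx, rfl | rfl⟩ | ⟨hx, rfl | rfl⟩)
            · exact Or.inr rfl
            · exact absurd hx hd
            · exact Or.inl rfl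
            · exact absurd hb hx
        · refine mix_mem hgm hfm hOg hOf ?_
          intro x
          simp only [Finset.mem_insert, Finset.mem_singleton]
          constructor
          · rintro (rfl | rfl)
            · exact Or.inl ⟨hb, Or.inr rfl⟩
            · exact Or.inr ⟨hd, Or.inr rfl⟩
          · rintro (⟨hx, rfl | rfl⟩ | ⟨hx, rfl | rfl⟩)
            · exact absurd hx ha
            · exact Or.inl rfl
            · exact absurd hcO hx
            · exact Or.inr rfl
    · rintro ⟨f₁, g₁⟩ hp₁ ⟨f₂, g₂⟩ hp₂ h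
      have hp₁' := Finset.mem_product.1 (Finset.mem_coe.1 hp₁)
      have hp₂' := Finset.mem_product.1 (Finset.mem_coe.1 hp₂)
      obtain ⟨hf₁m, hg₁m⟩ := hp₁'
      obtain ⟨hf₂m, hg₂m⟩ := hp₂'
      simp only at hf₁m hg₁m hf₂m hg₂m
      obtain ⟨hf₁, -, -⟩ := mem_missing.1 hf₁m
      obtain ⟨hg₁, hg₁S, -⟩ := mem_missing.1 hg₁m
      obtain ⟨hf₂, -, -⟩ := mem_missing.1 hf₂m
      obtain ⟨hg₂, hg₂S, -⟩ := mem_missing.1 hg₂m
      have hg₁c : g₁ c = c := (hg₁S c).2 (by simp)
      have hg₂c : g₂ c = c := (hg₂S c).2 (by simp)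
      exact exchange_injOn hg₁c hg₂c hf₁ hg₁ hf₂ hg₂ h
  have hS₀ : S₀.card = count G {a, b} * count G {c, d} := by
    simp [S₀, count, Finset.card_product]
  have hT₁ : T₁.card = count G {c, b} * count G {a, d} := by
    simp [T₁, count, Finset.card_product]
  have hT₂ : T₂.card = count G {a, c} * count G {b, d} := by
    simp [T₂, count, Finset.card_product]
  have hT₃ : T₃.card = count G {a, b, c, d} * count G ∅ := by
    simp [T₃, count, Finset.card_product]
  calc count G {a, b} * count G {c, d} = S₀.card := hS₀.symm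
    _ ≤ (T₁ ∪ T₂ ∪ T₃).card := hcard
    _ ≤ (T₁ ∪ T₂).card + T₃.card := Finset.card_union_le _ _
    _ ≤ T₁.card + T₂.card + T₃.card := Nat.add_le_add_right (Finset.card_union_le _ _) _
    _ = _ := by rw [hT₁, hT₂, hT₃]

end Vale.Agent.Lib.P308
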