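import Vale.Agent.Lib.P308.Transitive

/-!
# Near-perfect matchings in connected vertex-transitive graphs

The number of near-perfect matchings is at most `2 * n^3` times the number of perfect matchings.
-/

namespace Vale.Agent.Lib.P308

open Finset Function

variable {V : Type*} [Fintype V] [DecidableEq V]

set_option linter.unusedSectionVars false

open Classical in
/-- The near-perfect matchings of `G`: involutions with exactly two fixed points sending every
other vertex to a neighbour. -/
noncomputable def nearPerfect (G : SimpleGraph V) : Finset (V → V) :=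
  Finset.univ.filter fun f =>
    (∀ x, f (f x) = x) ∧ (Finset.univ.filter fun x => f x = x).card = 2 ∧
      (∀ x, f x ≠ x → G.Adj x (f x))

theorem nearPerfect_subset (G : SimpleGraph V) :
    nearPerfect G ⊆ (Finset.univ.offDiag : Finset (V × V)).biUnion fun p => missing G {p.1, p.2} := by
  classical
  intro f hf
  simp only [nearPerfect, Finset.mem_filter, Finset.mem_univ, true_and] at hf
  obtain ⟨h1, h2, h3⟩ := hf
  obtain ⟨u, v, huv, hS⟩ := Finset.card_eq_two.1 h2
  refine Finset.mem_biUnion.2 ⟨(u, v), by simp [huv], mem_missing.2 ⟨h1, ?_, ?_⟩⟩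
  · intro x
    have : x ∈ (Finset.univ.filter fun x => f x = x) ↔ x ∈ ({u, v} : Finset V) := by rw [hS]
    simpa using this
  · intro x hx
    refine h3 x ?_
    intro hfx
    apply hx
    have : x ∈ (Finset.univ.filter fun x => f x = x) := by simpa using hfx
    rw [hS] at this
    exact this

theorem dist_le_card (G : SimpleGraph V) (hconn : G.Connected) (u v : V) :
    G.dist u v ≤ Fintype.card V := by
  obtain ⟨p⟩ := hconn.preconnected u v
  have h1 : G.dist u v ≤ p.bypass.length := SimpleGraph.dist_le _
  have h2 := (p.bypass_isPath).length_lt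
  omega

/-- **Near-perfect matchings.** -/
theorem card_nearPerfect_le (G : SimpleGraph V) (hconn : G.Connected)
    (htrans : ∀ x y : V, ∃ φ : G ≃g G, φ x = y) :
    (nearPerfect G).card ≤ 2 * Fintype.card V ^ 3 * count G ∅ := by
  classical
  set n := Fintype.card V with hn
  have h1 := Finset.card_le_card (nearPerfect_subset G)
  have h2 := Finset.card_biUnion_le (s := (Finset.univ.offDiag : Finset (V × V)))
    (t := fun p => missing G {p.1, p.2})
  have h3 : ∀ p ∈ (Finset.univ.offDiag : Finset (V × V)),
      (missing G {p.1, p.2}).card ≤ 2 * n * count G ∅ := by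
    intro p hp
    have hne : p.1 ≠ p.2 := (Finset.mem_offDiag.1 hp).2.2
    have h4 := count_pair_le G hconn htrans hne
    have h5 := dist_le_card G hconn p.1 p.2
    have h6 : 2 * G.dist p.1 p.2 * count G ∅ ≤ 2 * n * count G ∅ :=
      Nat.mul_le_mul_right _ (Nat.mul_le_mul_left _ h5)
    show count G {p.1, p.2} ≤ _
    omega
  have h7 := Finset.sum_le_card_nsmul _ _ _ h3
  have h8 : (Finset.univ.offDiag : Finset (V × V)).card ≤ n * n := by
    rw [Finset.offDiag_card, Finset.card_univ]
    exact Nat.sub_le _ _
  calc (nearPerfect G).card ≤ _ := h1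
    _ ≤ _ := h2
    _ ≤ _ := h7
    _ = (Finset.univ.offDiag : Finset (V × V)).card * (2 * n * count G ∅) := by simp
    _ ≤ (n * n) * (2 * n * count G ∅) := Nat.mul_le_mul_right _ h8
    _ = 2 * n ^ 3 * count G ∅ := by ring

end Vale.Agent.Lib.P308
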