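import Vale.Agent.Lib.P308.FourPoint

/-!
# Perfect versus near-perfect matchings in vertex-transitive graphs

In a connected vertex-transitive graph, for distinct vertices `u v`, the number of matchings missing
exactly `u, v` is at most `2 dist(u,v) - 1` times the number of perfect matchings.
-/

namespace Vale.Agent.Lib.P308

open Finset Function

variable {V : Type*} [Fintype V] [DecidableEq V]

set_option linter.unusedSectionVars false

/-- Adding an edge between two uncovered vertices is injective. -/
theorem count_insert_edge_le (G : SimpleGraph V) {a c : V} {T : Finset V} (h : G.Adj a c)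
    (ha : a ∉ T) (hc : c ∉ T) : count G (insert a (insert c T)) ≤ count G T := by
  classical
  have hac : a ≠ c := h.ne
  refine Finset.card_le_card_of_injOn (fun f => f ∘ Equiv.swap a c) ?_ ?_
  · intro f hf
    obtain ⟨h1, h2, h3⟩ := mem_missing.1 (Finset.mem_coe.1 hf)
    have hfa : f a = a := (h2 a).2 (by simp)
    have hfc : f c = c := (h2 c).2 (by simp)
    have hne : ∀ x, x ≠ a → x ≠ c → f x ≠ a ∧ f x ≠ c := by
      intro x hxa hxc
      constructor
      · intro e
        have := h1 x
        rw [e, hfa] at this
        exact hxa this.symm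
      · intro e
        have := h1 x
        rw [e, hfc] at this
        exact hxc this.symm
    refine Finset.mem_coe.2 (mem_missing.2 ⟨?_, ?_, ?_⟩)
    · intro x
      simp only [comp_apply]
      by_cases hxa : x = a
      · subst hxa
        simp [hfc, hfa]
      by_cases hxc : x = c
      · subst hxc
        simp [hfc, hfa]
      · rw [Equiv.swap_apply_of_ne_of_ne hxa hxc]
        obtain ⟨h4, h5⟩ := hne x hxa hxc
        rw [Equiv.swap_apply_of_ne_of_ne h4 h5, h1]
    · intro x
      simp only [comp_apply]
      by_cases hxa : x = a
      · subst hxa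
        simp only [Equiv.swap_apply_left, hfc, ha, iff_false]
        exact hac.symm
      by_cases hxc : x = c
      · subst hxc
        simp only [Equiv.swap_apply_right, hfa, hc, iff_false]
        exact hac
      · rw [Equiv.swap_apply_of_ne_of_ne hxa hxc, h2]
        simp [hxa, hxc]
    · intro x hxT
      simp only [comp_apply]
      by_cases hxa : x = a
      · subst hxa
        simpa [hfc] using h
      by_cases hxc : x = c
      · subst hxc
        simpa [hfa] using h.symm
      · rw [Equiv.swap_apply_of_ne_of_ne hxa hxc]
        exact h3 x (by simp [hxa, hxc, hxT])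
  · intro f _ g _ e
    funext x
    have := congrFun e (Equiv.swap a c x)
    simpa using this

/-- The number of matchings with prescribed uncovered set is invariant under automorphisms. -/
theorem count_le_image (G : SimpleGraph V) (φ : G ≃g G) (S : Finset V) :
    count G S ≤ count G (S.image φ) := by
  classical
  refine Finset.card_le_card_of_injOn (fun f x => φ (f (φ.symm x))) ?_ ?_
  · intro f hf
    obtain ⟨h1, h2, h3⟩ := mem_missing.1 (Finset.mem_coe.1 hf)
    refine Finset.mem_coe.2 (mem_missing.2 ⟨?_, ?_, ?_⟩)
    · intro x
      simp [h1]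
    · intro x
      constructor
      · intro e
        have e' : f (φ.symm x) = φ.symm x := by
          apply φ.injective
          simpa using e
        exact Finset.mem_image.2 ⟨φ.symm x, (h2 _).1 e', by simp⟩
      · intro hx
        obtain ⟨y, hy, rfl⟩ := Finset.mem_image.1 hx
        simp [(h2 y).2 hy]
    · intro x hx
      have hx' : φ.symm x ∉ S := fun h => hx (Finset.mem_image.2 ⟨_, h, by simp⟩)
      have := h3 _ hx'
      have h4 := φ.map_adj_iff.2 this
      simpa using h4
  · intro f _ g _ e
    funext x
    have := congrFun e (φ x)
    simpa using this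

theorem count_pair_iso (G : SimpleGraph V) (φ : G ≃g G) (p q : V) :
    count G {φ p, φ q} = count G {p, q} := by
  classical
  have h1 := count_le_image G φ {p, q}
  have h2 := count_le_image G φ.symm {φ p, φ q}
  have e1 : ({p, q} : Finset V).image φ = {φ p, φ q} := by
    simp [Finset.image_insert]
  have e2 : ({φ p, φ q} : Finset V).image φ.symm = {p, q} := by
    simp [Finset.image_insert]
  rw [e1] at h1
  rw [e2] at h2
  omega

theorem count_pair_comm (G : SimpleGraph V) (p q : V) : count G {p, q} = count G {q, p} := by
  rw [Finset.pair_comm]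

theorem count_adj_le (G : SimpleGraph V) {a c : V} (h : G.Adj a c) : count G {a, c} ≤ count G ∅ := by
  classical
  have := count_insert_edge_le G (T := ∅) h (by simp) (by simp)
  simpa using this

/-- Four-point inequality along an edge. -/
theorem four_point_adj (G : SimpleGraph V) {a b c d : V} (hac : G.Adj a c)
    (hab : a ≠ b) (had : a ≠ d) (hbc : b ≠ c) (hbd : b ≠ d) (hcd : c ≠ d) :
    count G {a, b} * count G {c, d} ≤
      count G {c, b} * count G {a, d} + 2 * count G ∅ * count G {b, d} := by
  classical
  have h := four_point G hab hac.ne had hbc hbd hcd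
  have h1 := count_adj_le G hac
  have h2 : count G {a, b, c, d} ≤ count G {b, d} := by
    have : ({a, b, c, d} : Finset V) = insert a (insert c {b, d}) := by
      ext x
      simp only [Finset.mem_insert, Finset.mem_singleton]
      tauto
    rw [this]
    exact count_insert_edge_le G hac (by simp [hab, had]) (by simp [hbc.symm, hcd])
  have h3 : count G {a, c} * count G {b, d} ≤ count G ∅ * count G {b, d} :=
    Nat.mul_le_mul_right _ h1
  have h4 : count G {a, b, c, d} * count G ∅ ≤ count G {b, d} * count G ∅ :=
    Nat.mul_le_mul_right _ h2
  nlinarith [h, h3, h4]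

/-- In a vertex-transitive graph the count is Lipschitz along edges. -/
theorem count_lipschitz (G : SimpleGraph V) (htrans : ∀ x y : V, ∃ φ : G ≃g G, φ x = y)
    {x y b : V} (hxy : G.Adj x y) (hxb : x ≠ b) (hyb : y ≠ b) :
    count G {x, b} ≤ count G {y, b} + 2 * count G ∅ := by
  classical
  -- a maximising pair
  have hne : (Finset.univ.offDiag : Finset (V × V)).Nonempty :=
    ⟨(x, b), by simp [hxb]⟩
  obtain ⟨⟨p, q⟩, hpq, hmax⟩ := Finset.exists_max_image _ (fun r : V × V => count G {r.1, r.2}) hne
  have hpq' : p ≠ q := by simpa using hpq
  set M := count G {p, q} with hM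
  have hle : ∀ u v : V, u ≠ v → count G {u, v} ≤ M := fun u v huv =>
    hmax (u, v) (by simp [huv])
  obtain ⟨φ, hφ⟩ := htrans p y
  set d := φ q with hd
  have hdy : y ≠ d := by
    rw [← hφ, hd]
    exact fun e => hpq' (φ.injective e)
  have hyd : count G {y, d} = M := by
    rw [← hφ, hd, count_pair_iso]
  have hxbM := hle x b hxb
  by_cases hdb : d = b
  · -- the maximum is attained at `y, b`
    rw [hdb] at hyd
    omega
  by_cases hdx : d = x
  · -- the maximum is attained on an edge
    rw [hdx, count_pair_comm] at hyd
    have := count_adj_le G hxy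
    omega
  have key := four_point_adj G hxy hxb (Ne.symm hdx) (Ne.symm hyb) (Ne.symm hdb) hdy
  rw [hyd] at key
  have h1 : count G {x, d} ≤ M := hle x d (Ne.symm hdx)
  have h2 : count G {b, d} ≤ M := hle b d (Ne.symm hdb)
  rcases Nat.eq_zero_or_pos M with hM0 | hMpos
  · omega
  · have h3 : count G {x, b} * M ≤ (count G {y, b} + 2 * count G ∅) * M := by
      calc count G {x, b} * M ≤ count G {y, b} * count G {x, d} + 2 * count G ∅ * count G {b, d} := key
        _ ≤ count G {y, b} * M + 2 * count G ∅ * M :=
            Nat.add_le_add (Nat.mul_le_mul_left _ h1) (Nat.mul_le_mul_left _ h2)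
        _ = _ := by ring
    exact Nat.le_of_mul_le_mul_right h3 hMpos

/-- The bound along a walk. -/
theorem count_walk_bound (G : SimpleGraph V) (htrans : ∀ x y : V, ∃ φ : G ≃g G, φ x = y) {b x : V}
    (p : G.Walk x b) (hxb : x ≠ b) : count G {x, b} + count G ∅ ≤ 2 * p.length * count G ∅ := by
  induction p with
  | nil => exact absurd rfl hxb
  | @cons u v w h q ih =>
    by_cases hvw : v = w
    · subst hvw
      have := count_adj_le G h
      have hlen : 1 ≤ (SimpleGraph.Walk.cons h q).length := by simp
      have : 2 * 1 * count G ∅ ≤ 2 * (SimpleGraph.Walk.cons h q).length * count G ∅ :=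
        Nat.mul_le_mul_right _ (Nat.mul_le_mul_left _ hlen)
      omega
    · have h1 := ih hvw
      have h2 := count_lipschitz G htrans h hxb hvw
      have hlen : (SimpleGraph.Walk.cons h q).length = q.length + 1 := by simp
      rw [hlen]
      have : 2 * (q.length + 1) * count G ∅ = 2 * q.length * count G ∅ + 2 * count G ∅ := by ring
      omega

/-- **Main bound.** -/
theorem count_pair_le (G : SimpleGraph V) (hconn : G.Connected)
    (htrans : ∀ x y : V, ∃ φ : G ≃g G, φ x = y) {u v : V} (huv : u ≠ v) :
    count G {u, v} + count G ∅ ≤ 2 * G.dist u v * count G ∅ := by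
  obtain ⟨p, hp⟩ := hconn.exists_walk_length_eq_dist u v
  have := count_walk_bound G htrans p huv
  rwa [hp] at this

end Vale.Agent.Lib.P308
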